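import Vale.Agent.P225.Assembly

namespace Vale.Agent.Results.P225.RotSymComparison

open Vale.Agent.P225 Filter Module

/-- Yau's dimension comparison for complete rotationally symmetric metrics with nonnegative Ricci
curvature, for every real growth rate. -/
theorem result : ∀ n : ℕ, 2 ≤ n → ∀ w : ℝ → ℝ, ContDiff ℝ 2 w →
    (∀ r : ℝ, 0 ≤ r → deriv (fun s => 1 + s * deriv w s) r ≤ 0) →
    Tendsto (geoRad w) atTop atTop → ∀ d : ℝ, 0 ≤ d →
    ∀ V : Submodule ℝ (Space n → ℝ),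
      (∀ u ∈ V, IsRotHarmonic w u ∧ HasGrowth w d u) →
      FiniteDimensional ℝ V ∧ finrank ℝ V ≤ finrank ℝ (harmPolys n ⌊d⌋₊) := by
  intro n hn w hw hp hR d hd V hV
  obtain ⟨N, rfl⟩ : ∃ N, n = N + 2 := ⟨n - 2, by omega⟩
  exact finite_and_finrank_le hw hp hR hd V hV

end Vale.Agent.Results.P225.RotSymComparison
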