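import Vale.Agent.P225.Disproof.Assembly
import Vale.Agent.P225.Disproof.RiemDist

/-!
# P225: Yau's comparison fails

A complete metric of nonnegative Ricci curvature on `ℝ ^ 3` has more independent harmonic functions
of growth order at most `26` than Euclidean space.
-/

namespace Vale.Agent.Results.P225.YauDisproof

open Vale.Agent.P225 Vale.Agent.P225.Disproof

theorem result :
    ∃ g : Met 3, IsSmoothMetric g ∧ IsCompleteMetric g ∧ RicciNonneg g ∧
      ∃ u : Fin ((3 + 26 - 1).choose 26 + (3 + 26 - 2).choose (26 - 1) + 1) → Space 3 → ℝ,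
        LinearIndependent ℝ u ∧ ∀ m, IsHarmGrowth g (26 : ℝ) (u m) := by
  obtain ⟨g, hg, hr, u, hu, hh⟩ := yauFails_three
  exact ⟨g, hg.smoothMetric, hg.completeMetric, hr, u, hu, fun m =>
    IsPolyHarm.harmGrowth hg (by norm_num) (by simpa using hh m)⟩

end Vale.Agent.Results.P225.YauDisproof
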